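import Vale.Agent.P017.R3.Gen

/-!
# P017: even discriminants `-4m`, `-8m` (3 not inert, 5 not split)

Interface of the modules.  `m` is odd and squarefree, `K = ℚ(√-m)` with `m = 1 mod 4` (case II) or
`K = ℚ(√-2m)` (case III, `κ = 1` if `m = 1 mod 4`, `κ = 0` if `m = 3 mod 4`).
-/

open Finset

namespace Vale.Agent.P017.R4

open Vale.Agent.P017.R3
open Vale.Agent.P017.R2.H985 (bit PF Pat sym Mat cork)

/-! ### Primes in boxes with the symbol (2/p) -/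

/-- weighted character sum over the box, twisted with `(2/p)` -/
noncomputable def Th8 (l : ℝ) (j e c : ℕ) : ℝ :=
  ∑ p ∈ Bx l j e, Real.log p * ((jacobiSym p c : ℝ) * (jacobiSym 2 p : ℝ))

/-- (C1), copy of `R3.StmtChar` -/
def StmtChar8 : Prop := ∀ l : ℝ, 1 < l → l ≤ 2 → ∀ (A : ℕ) (ε : ℝ), 0 < ε → ∃ j₀ : ℕ,
  ∀ j : ℕ, j₀ ≤ j → ∀ e : ℕ, (e = 1 ∨ e = 3) →
  ∑ c ∈ (Icc 1 ⌊l ^ (A * j)⌋₊).filter (fun c => Squarefree c ∧ Odd c), |Th8 l j e c| / c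
    ≤ ε * l ^ j

/-- the symbols of the primes of the box modulo the primes of `n`, together with `(2/p)`, are not
equidistributed -/
def Bad8 (l δ : ℝ) (j e n : ℕ) : Prop := ∃ (φ : Pat n) (ρ : ZMod 2),
  δ * (Bx l j e).card < |(2 * Fintype.card (Pat n) : ℝ) *
    ((Bx l j e).filter (fun p => sym n p = φ ∧ bit 2 p = ρ)).card - (Bx l j e).card|

open Classical in
/-- (C2), copy of `R3.StmtBad` -/
def StmtBad8 : Prop := ∀ l : ℝ, 1 < l → l ≤ 2 → ∀ (A : ℕ) (δ ε : ℝ), 0 < δ → 0 < ε → ∃ j₀ : ℕ,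
  ∀ j : ℕ, j₀ ≤ j → ∀ e : ℕ, (e = 1 ∨ e = 3) → ∀ Z : ℕ, (Z : ℝ) ≤ l ^ (A * j) →
  (((Icc 1 Z).filter (fun n => Squarefree n ∧ Odd n ∧
    (∀ p : ℕ, p ∈ n.primeFactors → (p : ℝ) ≤ l ^ j) ∧ Bad8 l δ j e n)).card : ℝ) ≤ ε * Z

open Classical in
/-- (C3), copy of `R3.StmtEx` -/
def StmtEx8 : Prop := ∀ l : ℝ, 1 < l → l ≤ 2 → ∀ a δ' δ : ℝ, 0 < a → 0 < δ' → 0 < δ → ∃ X₀ : ℕ,
  ∀ X : ℕ, X₀ ≤ X →
  ∑ d ∈ (Icc 1 X).filter (fun d => Squarefree d ∧ Odd d),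
    ((d.primeFactors.filter (fun q : ℕ => (X : ℝ) ^ a < q ∧
      (∀ p ∈ d.primeFactors, p < q → (p : ℝ) ≤ l ^ bi l q) ∧
      Bad8 l δ' (bi l q) (q % 4) (Nat.lcm (∏ p ∈ d.primeFactors.filter (· < q), p) 15))).card : ℝ)
    ≤ δ * X

/-! ### Cells (the structure `Sys` and `Sys.Cnt`, `Sys.Tot`, `Sys.StmtRM` are those of R3) -/

open Classical in
/-- copy of `R3.ExW` -/
noncomputable def ExW8 (l δ : ℝ) : List (ℕ × ℕ) → ℕ → ℕ
  | [], _ => 0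
  | b :: bs, n => (if Bad8 l δ b.1 b.2 (Nat.lcm n 15) then All l (b :: bs) else 0) +
      ∑ p ∈ Bx l b.1 b.2, ExW8 l δ bs (n * p)

/-- copy of `R3.Sys.Hyp`, patterns with `(2/p)` -/
structure Hyp8 (S : Sys) : Prop where
  range : ∀ (ε : List (ZMod 2)) (n : ℕ), 0 ≤ S.f ε n ∧ S.f ε n ≤ 1
  frp : ∀ n p : ℕ, p.Prime → 5 < p → S.fr (n * p) = S.fr n
  step : ∀ n : ℕ, Squarefree n → Odd n → ∀ (ε : List (ZMod 2)) (e : ℕ), (e = 1 ∨ e = 3) →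
    ∃ G : Pat (Nat.lcm n 15) → ZMod 2 → ℝ, (∀ φ ρ, 0 ≤ G φ ρ) ∧
      (∀ p : ℕ, p.Prime → 5 < p → ¬ p ∣ n → p % 4 = e →
        S.f ε (n * p) = G (sym (Nat.lcm n 15) p) (bit 2 p)) ∧
      ∑ φ, ∑ ρ, G φ ρ = 2 * Fintype.card (Pat (Nat.lcm n 15)) * S.f (eps e :: ε) n
  base : ∀ n : ℕ, Squarefree n → Odd n → ∀ e : ℕ, (e = 1 ∨ e = 3) →
    ∃ A B : Finset (Pat (Nat.lcm n 15) × ZMod 2),
      (∀ p : ℕ, p.Prime → 5 < p → ¬ p ∣ n → p % 4 = e → (sym (Nat.lcm n 15) p, bit 2 p) ∈ A →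
        S.OK (n * p) ∧ S.Rd (n * p)) ∧
      (∀ p : ℕ, p.Prime → 5 < p → ¬ p ∣ n → p % 4 = e → S.OK (n * p) →
        (sym (Nat.lcm n 15) p, bit 2 p) ∈ B) ∧
      S.f [] n * (2 * Fintype.card (Pat (Nat.lcm n 15)) / 2 ^ S.fr n) ≤ A.card ∧
      (B.card : ℝ) ≤ 2 * Fintype.card (Pat (Nat.lcm n 15)) / 2 ^ S.fr n

/-- copy of `R3.Sys.StmtCell` -/
def StmtCell8 (S : Sys) : Prop := ∀ (l δ : ℝ), 1 < l → 0 < δ → δ < 1 →
  ∀ (b : ℕ × ℕ) (bs : List (ℕ × ℕ)),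
  ((b :: bs).map Prod.fst).Pairwise (· < ·) → (∀ c ∈ b :: bs, c.2 = 1 ∨ c.2 = 3) →
  5 ≤ l ^ b.1 → ∀ n : ℕ, Squarefree n → Odd n → (∀ p ∈ n.primeFactors, (p : ℝ) ≤ l ^ b.1) →
  (1 - δ) ^ (b :: bs).length * (S.f (((b :: bs).dropLast).map (fun c => eps c.2)) n *
      ((All l (b :: bs) : ℝ) / 2 ^ S.fr n)) - ExW8 l δ (b :: bs) n ≤ S.Cnt l (b :: bs) n ∧
  (S.Tot l (b :: bs) n : ℝ) ≤ (1 + δ) * ((All l (b :: bs) : ℝ) / 2 ^ S.fr n) +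
    ExW8 l δ (b :: bs) n

/-- (C4), copy of `R3.StmtCellGen` -/
def StmtCellGen8 : Prop := ∀ S : Sys, Hyp8 S → StmtCell8 S

open Classical in
/-- density in the class `r` modulo 4 -/
def StmtDens8 (S : Sys) (r : ℕ) : Prop := ∀ η δ : ℝ, η < eta → 0 < δ → ∃ X₀ : ℕ, ∀ X : ℕ, X₀ ≤ X →
  η * ((Icc 1 X).filter (fun d => Squarefree d ∧ d % 4 = r ∧ S.OK d)).card - δ * X ≤
    ((Icc 1 X).filter (fun d => Squarefree d ∧ d % 4 = r ∧ S.OK d ∧ S.Rd d)).card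

/-- (C5), copy of `R3.StmtAsmGen` -/
def StmtAsmGen8 : Prop := StmtTK → StmtSmooth → StmtSame → StmtCk → StmtEx8 → ∀ S : Sys, Hyp8 S →
  StmtCell8 S → S.StmtRM → ∀ r : ℕ, (r = 1 ∨ r = 3) → StmtDens8 S r

/-! ### Case III: `K = ℚ(√-2m)`; the index `none` is the prime 2 -/

/-- symbols, zero diagonal; row `q`, column `2`: `(2/q)`; row `2`, column `q`: `(q, -2m)_2` -/
def AA3 (κ : ZMod 2) (n : ℕ) : Matrix (Option (PF n)) (Option (PF n)) (ZMod 2) :=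
  ext (AA n) (fun q => bit 2 q) (fun q => bit 2 q + κ * mu n q) 0

/-- probability for case III: the old model `R3.prob` with one more index -/
noncomputable def FF3 (κ : ZMod 2) (ε : List (ZMod 2)) (n : ℕ) : ℝ :=
  avg (fun u : Option (PF n) → ZMod 2 =>
    prob ε (Option (PF n)) (AA3 κ n + Matrix.diagonal u) (extv (mu n) κ))

/-- final matrix for `m = n p`, `w = sym n p`, `ρ = bit 2 p` -/
def MM3 (κ : ZMod 2) (n : ℕ) (w : Pat n) (ρ : ZMod 2) :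
    Matrix (Option (PF n)) (Option (PF n)) (ZMod 2) :=
  ext (Mat n (fun q => w q + bit 2 q)) (fun q => bit 2 q) (fun q => bit 2 q + κ * mu n q)
    (ρ + ∑ q : PF n, bit 2 q)

noncomputable def S3 (κ : ZMod 2) : Sys :=
  ⟨fun m => OKc (2 * m), fun m => (m % 4 = 1 ↔ κ = 1) → Vale.Agent.P017.H185.Redei (2 * m),
    FF3 κ, free⟩

/-- (R3) -/
def StmtRed3 : Prop := ∀ κ : ZMod 2, ∀ n : ℕ, Squarefree n → Odd n → ∀ p : ℕ, p.Prime → p ≠ 2 →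
  ¬ p ∣ n → ((n * p) % 4 = 1 ↔ κ = 1) → ck (MM3 κ n (sym n p) (bit 2 p)) = 0 →
  Vale.Agent.P017.H185.Redei (2 * (n * p))

/-- (D3) -/
def StmtS3 : Prop := StmtRed3 → StmtRM → ∀ κ : ZMod 2, Hyp8 (S3 κ) ∧ (S3 κ).StmtRM

/-! ### Case II: `K = ℚ(√-m)`, `m = 1 mod 4`; the index `none` is the prime 2 -/

/-- Rédei's condition for `d = 1 mod 4` (the prime 2 ramifies in `ℚ(√-d)`) -/
def Redei2 (d : ℕ) : Prop := ∀ a x : ℕ, a ∣ d → (x = 1 ∨ x = 2) →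
  (∀ p : ℕ, p.Prime → p ∣ d →
    (¬ p ∣ a → IsSquare ((x * a : ℕ) : ZMod p)) ∧ (p ∣ a → IsSquare ((x * (d / a) : ℕ) : ZMod p))) →
  x = 1 ∧ (a = 1 ∨ a = d)

/-- symbols, zero diagonal; row `q`, column `2`: `(2/q)`; row `2`, column `q`: `(q, -m)_2` -/
def AA2 (n : ℕ) : Matrix (Option (PF n)) (Option (PF n)) (ZMod 2) :=
  ext (AA n) (fun q => bit 2 q) (mu n) 0

/-- the new column: `φ`, but `e` at the special index -/
def cl {V : Type} (e : ZMod 2) (st φ : V → ZMod 2) : V → ZMod 2 := fun a =>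
  if st a = 1 then e else φ a

/-- random model for case II; `st` is the indicator of the special index 2 -/
noncomputable def prob3 : List (ZMod 2) → (V : Type) → [Fintype V] → [DecidableEq V] →
    Matrix V V (ZMod 2) → (V → ZMod 2) → (V → ZMod 2) → ℝ
  | [], _, _, _, M, _, _ => if ck M = 0 then 1 else 0
  | e :: ε, V, _, _, M, μ, st =>
    (∑ φ : V → ZMod 2, ∑ w : ZMod 2,
      prob3 ε (Option V) (ext M (cl e st φ) (φ + e • μ) w) (extv μ e) (extv st 0)) /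
      2 ^ (Fintype.card V + 1)

/-- reciprocity; the special row is `μ` -/
structure Rec3 {V : Type} (M : Matrix V V (ZMod 2)) (μ st : V → ZMod 2) : Prop where
  recip : ∀ a b, a ≠ b → st a = 0 → st b = 0 → M a b + M b a = μ a * μ b
  row : ∀ a b, st a = 1 → a ≠ b → M a b = μ b
  one : ∀ a b, st a = 1 → st b = 1 → a = b
  ex : ∃ a, st a = 1
  zero : ∀ a, st a = 1 → μ a = 0

/-- number of nonzero left kernel vectors whose restriction to the ordinary indices is in the right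
kernel -/
noncomputable def sp3 {V : Type} [Fintype V] [DecidableEq V] (M : Matrix V V (ZMod 2))
    (st : V → ZMod 2) : ℕ :=
  (univ.filter fun x : V → ZMod 2 => x ≠ 0 ∧ M.vecMul x = 0 ∧ M.mulVec (cl 0 st x) = 0).card

/-- (L1), copy of `R3.StmtLA1` -/
def StmtLA1' : Prop := ∀ (V : Type) [Fintype V] [DecidableEq V] (M : Matrix V V (ZMod 2))
  (μ st : V → ZMod 2) (e : ZMod 2), (∀ a b, st a = 1 → st b = 1 → a = b) →
  sp3 M st = 0 → ∀ f : ℕ → ℝ,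
  ∑ φ : V → ZMod 2, ∑ w : ZMod 2, f (ck (ext M (cl e st φ) (φ + e • μ) w)) =
    2 ^ (Fintype.card V + 1) * ((1 - (1 / 2 : ℝ) ^ ck M) ^ 2 * f (ck M - 1) +
      (1 - (1 - (1 / 2 : ℝ) ^ ck M) ^ 2 - (1 / 2 : ℝ) ^ (2 * ck M + 1)) * f (ck M) +
      (1 / 2 : ℝ) ^ (2 * ck M + 1) * f (ck M + 1))

/-- (L2), copy of `R3.StmtLA2` -/
def StmtLA2' : Prop := ∀ (V : Type) [Fintype V] [DecidableEq V] (M : Matrix V V (ZMod 2))
  (μ st : V → ZMod 2) (e : ZMod 2), (∀ a b, st a = 1 → st b = 1 → a = b) →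
  ∑ φ : V → ZMod 2, ∑ w : ZMod 2, (2 : ℝ) ^ ck (ext M (cl e st φ) (φ + e • μ) w) ≤
    2 ^ (Fintype.card V + 1) * ((2 : ℝ) ^ ck M / 2 + 3 / 2)

/-- (L3), copy of `R3.StmtLA3` -/
def StmtLA3' : Prop := ∀ (V : Type) [Fintype V] [DecidableEq V] (M : Matrix V V (ZMod 2))
  (μ st : V → ZMod 2) (e : ZMod 2), Rec3 M μ st →
  ∑ φ : V → ZMod 2, ∑ w : ZMod 2, (sp3 (ext M (cl e st φ) (φ + e • μ) w) (extv st 0) : ℝ) ≤
    2 ^ (Fintype.card V + 1) * ((sp3 M st : ℝ) / 2 +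
      (1 / 2 : ℝ) ^ (univ.filter fun a => μ a = 1).card)

/-- (L4), copy of `R3.StmtRMg` -/
def StmtRM3 : Prop := ∀ η B : ℝ, η < eta → ∃ h k : ℕ, ∀ (ε : List (ZMod 2)) (V W : Type)
  [Fintype V] [DecidableEq V] [Fintype W] [Nonempty W]
  (A : W → Matrix V V (ZMod 2)) (μ st : V → ZMod 2), (∀ u, Rec3 (A u) μ st) →
  h ≤ (ε.take (ε.length - k)).count 1 →
  (∑ u : W, (2 : ℝ) ^ ck (A u)) / Fintype.card W ≤ B →
  η ≤ (∑ u : W, prob3 ε V (A u) μ st) / Fintype.card W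

/-- (L5) -/
def StmtL5 : Prop := StmtLA1' → StmtLA2' → StmtLA3' → StmtRM3

/-- probability for case II -/
noncomputable def FF2' (ε : List (ZMod 2)) (n : ℕ) : ℝ :=
  avg (fun u : Option (PF n) → ZMod 2 =>
    prob3 ε (Option (PF n)) (AA2 n + Matrix.diagonal u) (extv (mu n) 0) (extv 0 1))

/-- final matrix for `m = n p`, `w = sym n p`, `ρ = bit 2 p` -/
def MM2' (n : ℕ) (w : Pat n) (ρ : ZMod 2) :
    Matrix (Option (PF n)) (Option (PF n)) (ZMod 2) :=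
  ext (Mat n w) (fun q => bit 2 q) (mu n) (ρ + ∑ q : PF n, bit 2 q)

noncomputable def S2' : Sys := ⟨OKc, fun m => m % 4 = 1 → Redei2 m, FF2', free⟩

/-- (R2) -/
def StmtRed2' : Prop := ∀ n : ℕ, Squarefree n → Odd n → ∀ p : ℕ, p.Prime → p ≠ 2 →
  ¬ p ∣ n → (n * p) % 4 = 1 → ck (MM2' n (sym n p) (bit 2 p)) = 0 → Redei2 (n * p)

/-- (D2) -/
def StmtS2' : Prop := StmtRed2' → StmtRM3 → Hyp8 S2' ∧ S2'.StmtRM

/-! ### Class groups, finiteness -/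

universe u

/-- (N2) -/
def StmtFin2 : Prop := ∀ m : ℕ, Squarefree m → m % 4 = 1 → OKc m → Redei2 m →
  ∀ (K : Type u) [Field K] [NumberField K] [Algebra.IsQuadraticExtension ℚ K] (θ : K),
    θ ^ 2 = -((4 * m : ℕ) : K) → Finite (Vale.Agent.P017.H185.X015.baseChange K).toAffine.Point

/-- (N3) -/
def StmtFin3 : Prop := ∀ m : ℕ, Squarefree m → Odd m → OKc (2 * m) →
  Vale.Agent.P017.H185.Redei (2 * m) →
  ∀ (K : Type u) [Field K] [NumberField K] [Algebra.IsQuadraticExtension ℚ K] (θ : K),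
    θ ^ 2 = -((8 * m : ℕ) : K) → Finite (Vale.Agent.P017.H185.X015.baseChange K).toAffine.Point

/-! ### Numbers -/

open Classical in
/-- (M1) -/
def StmtNum5 : Prop := ∃ X₀ : ℕ, ∀ X : ℕ, X₀ ≤ X →
  (7385 / 100000 : ℝ) * X ≤ ((Icc 1 X).filter (fun d => Squarefree d ∧ d % 4 = 1 ∧ OKc d)).card

open Classical in
/-- (M2) -/
def StmtNum6 : Prop := ∀ r : ℕ, (r = 1 ∨ r = 3) → ∃ X₀ : ℕ, ∀ X : ℕ, X₀ ≤ X →
  (7385 / 100000 : ℝ) * X ≤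
    ((Icc 1 X).filter (fun d => Squarefree d ∧ d % 4 = r ∧ OKc (2 * d))).card

end Vale.Agent.P017.R4
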