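import Vale.Agent.P017.R4.Defs

/-!
# P017: even discriminants, 3 inert and 5 split

Interface of stage 2.  Index set `Option (Option (PF n))`: inner `none` is the prime 2, outer `none`
is the special index (row 3, column 5).
-/

open Finset

namespace Vale.Agent.P017.R4

open Vale.Agent.P017.R3
open Vale.Agent.P017.R2.H985 (bit PF Pat sym Mat cork)

/-! ### The random model -/

/-- random model with two special indices: at `st` the entries of the new row and of the new column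
are independent, at `tw` the entry of the new column is `e` -/
noncomputable def prob5 : List (ZMod 2) → (V : Type) → [Fintype V] → [DecidableEq V] →
    Matrix V V (ZMod 2) → (V → ZMod 2) → (V → ZMod 2) → (V → ZMod 2) → ℝ
  | [], _, _, _, M, _, _, _ => if ck M = 0 then 1 else 0
  | e :: ε, V, _, _, M, μ, st, tw =>
    (∑ φ : V → ZMod 2, ∑ w : ZMod 2, ∑ χ : ZMod 2,
      prob5 ε (Option V) (ext M (cl e tw φ) (φ + (e • μ + χ • st)) w) (extv μ e) (extv st 0)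
        (extv tw 0)) / 2 ^ (Fintype.card V + 2)

/-- reciprocity away from the special indices; the row of `tw` is `μ` -/
structure Rec5 {V : Type} (A : Matrix V V (ZMod 2)) (μ st tw : V → ZMod 2) : Prop where
  recip : ∀ a b, a ≠ b → st a = 0 → st b = 0 → tw a = 0 → tw b = 0 → A a b + A b a = μ a * μ b
  row : ∀ a b, tw a = 1 → a ≠ b → A a b = μ b
  one : ∀ a b, st a = 1 → st b = 1 → a = b
  one' : ∀ a b, tw a = 1 → tw b = 1 → a = b
  zero : ∀ a, st a = 1 → μ a = 0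
  zero' : ∀ a, tw a = 1 → μ a = 0
  disj : ∀ a, st a = 1 → tw a = 0

/-- (L') -/
def StmtRM5 : Prop := ∀ η B : ℝ, η < eta → ∃ h k : ℕ, ∀ (ε : List (ZMod 2)) (V W : Type)
  [Fintype V] [DecidableEq V] [Fintype W] [Nonempty W]
  (A : W → Matrix V V (ZMod 2)) (μ st tw : V → ZMod 2), (∀ u, Rec5 (A u) μ st tw) →
  h ≤ (ε.take (ε.length - k)).count 1 →
  (∑ u : W, (2 : ℝ) ^ ck (A u)) / Fintype.card W ≤ B →
  η ≤ (∑ u : W, prob5 ε V (A u) μ st tw) / Fintype.card W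

/-! ### Systems; `κ` as in `R4.Defs` -/

/-- case III, bordered matrix (diagonal `u`): row `2`: entry 1 at column 5; row 3: entry 1 at column
2 -/
def AA3s (κ : ZMod 2) (n : ℕ) (u : Option (PF n) → ZMod 2) :
    Matrix (Option (Option (PF n))) (Option (Option (PF n))) (ZMod 2) :=
  ext (AA3 κ n + Matrix.diagonal u) (extv (fun q : PF n => bit ((q : ℕ) : ℤ) 5) 1)
    (extv (fun q : PF n => bit ((q : ℕ) : ℤ) 3) 1) 1

/-- case II, bordered matrix (diagonal `u`): row `2`: entry 0 at column 5; row 3: entry 1 at column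
2 -/
def AA2s (n : ℕ) (u : Option (PF n) → ZMod 2) :
    Matrix (Option (Option (PF n))) (Option (Option (PF n))) (ZMod 2) :=
  ext (AA2 n + Matrix.diagonal u) (extv (fun q : PF n => bit ((q : ℕ) : ℤ) 5) 0)
    (extv (fun q : PF n => bit ((q : ℕ) : ℤ) 3) 1) 1

/-- probability, case III, 3 inert, 5 split; only `prob2` is needed -/
noncomputable def FF3s (κ : ZMod 2) (ε : List (ZMod 2)) (n : ℕ) : ℝ :=
  if 3 ∣ n ∨ 5 ∣ n then 0 else
    avg (fun u : Option (PF n) → ZMod 2 =>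
      prob2 ε (Option (Option (PF n))) (AA3s κ n u) (extv (extv (mu n) κ) 0) (extv 0 1))

/-- probability, case II, 3 inert, 5 split -/
noncomputable def FF2s (ε : List (ZMod 2)) (n : ℕ) : ℝ :=
  if 3 ∣ n ∨ 5 ∣ n then 0 else
    avg (fun u : Option (PF n) → ZMod 2 =>
      prob5 ε (Option (Option (PF n))) (AA2s n u) (extv (extv (mu n) 0) 0) (extv 0 1)
        (extv (extv 0 1) 0))

/-- final matrix, case III -/
def MM3s (κ : ZMod 2) (n : ℕ) (w : Pat n) (ρ : ZMod 2) :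
    Matrix (Option (Option (PF n))) (Option (Option (PF n))) (ZMod 2) :=
  ext (MM3 κ n w ρ) (extv (fun q : PF n => bit ((q : ℕ) : ℤ) 5) 1)
    (extv (fun q : PF n => bit ((q : ℕ) : ℤ) 3) 1) 1

/-- final matrix, case II -/
def MM2s (n : ℕ) (w : Pat n) (ρ : ZMod 2) :
    Matrix (Option (Option (PF n))) (Option (Option (PF n))) (ZMod 2) :=
  ext (MM2' n w ρ) (extv (fun q : PF n => bit ((q : ℕ) : ℤ) 5) 0)
    (extv (fun q : PF n => bit ((q : ℕ) : ℤ) 3) 1) 1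

open Vale.Agent.P017.H185 (Cond1 Cond2)

noncomputable def S3s (κ : ZMod 2) : Sys :=
  ⟨fun m => OK2 (2 * m), fun m => (m % 4 = 1 ↔ κ = 1) →
    Cond1 ((2 * m : ℕ) : ℚ) ∧ Cond2 ((2 * m : ℕ) : ℚ), FF3s κ, fun _ => 2⟩

noncomputable def S2s : Sys :=
  ⟨OK2, fun m => m % 4 = 1 → Cond1 (m : ℚ) ∧ Cond2 (m : ℚ), FF2s, fun _ => 2⟩

/-- (E1) Cond1, case III -/
def StmtE1 : Prop := ∀ κ : ZMod 2, ∀ n : ℕ, Squarefree n → Odd n → ¬ 3 ∣ n → ¬ 5 ∣ n →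
  ∀ p : ℕ, p.Prime → 5 < p → ¬ p ∣ n → OK2 (2 * (n * p)) → ((n * p) % 4 = 1 ↔ κ = 1) →
  ck (MM3s κ n (sym n p) (bit 2 p)) = 0 → Cond1 ((2 * (n * p) : ℕ) : ℚ)

/-- (E2) Cond2, case III -/
def StmtE2 : Prop := ∀ κ : ZMod 2, ∀ n : ℕ, Squarefree n → Odd n → ¬ 3 ∣ n → ¬ 5 ∣ n →
  ∀ p : ℕ, p.Prime → 5 < p → ¬ p ∣ n → OK2 (2 * (n * p)) → ((n * p) % 4 = 1 ↔ κ = 1) →
  ck (MM3s κ n (sym n p) (bit 2 p)) = 0 → Cond2 ((2 * (n * p) : ℕ) : ℚ)

/-- (E3) Cond1, case II -/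
def StmtE3 : Prop := ∀ n : ℕ, Squarefree n → Odd n → ¬ 3 ∣ n → ¬ 5 ∣ n →
  ∀ p : ℕ, p.Prime → 5 < p → ¬ p ∣ n → OK2 (n * p) → (n * p) % 4 = 1 →
  ck (MM2s n (sym n p) (bit 2 p)) = 0 → Cond1 ((n * p : ℕ) : ℚ)

/-- (E4) Cond2, case II -/
def StmtE4 : Prop := ∀ n : ℕ, Squarefree n → Odd n → ¬ 3 ∣ n → ¬ 5 ∣ n →
  ∀ p : ℕ, p.Prime → 5 < p → ¬ p ∣ n → OK2 (n * p) → (n * p) % 4 = 1 →
  ck (MM2s n (sym n p) (bit 2 p)) = 0 → Cond2 ((n * p : ℕ) : ℚ)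

/-- (D5) -/
def StmtS3s : Prop := StmtE1 → StmtE2 → StmtRMg → ∀ κ : ZMod 2, Hyp8 (S3s κ) ∧ (S3s κ).StmtRM

/-- (D6) -/
def StmtS2s : Prop := StmtE3 → StmtE4 → StmtRM5 → Hyp8 S2s ∧ S2s.StmtRM

/-! ### Numbers -/

open Classical in
/-- (M3) the two local classes together -/
def StmtNum7 : Prop := ∃ X₀ : ℕ, ∀ X : ℕ, X₀ ≤ X →
  (1055 / 10000 : ℝ) * X ≤
    ((Icc 1 X).filter (fun d => Squarefree d ∧ d % 4 = 1 ∧ (OKc d ∨ OK2 d))).card

open Classical in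
/-- (M4) -/
def StmtNum8 : Prop := ∀ r : ℕ, (r = 1 ∨ r = 3) → ∃ X₀ : ℕ, ∀ X : ℕ, X₀ ≤ X →
  (1055 / 10000 : ℝ) * X ≤
    ((Icc 1 X).filter (fun d => Squarefree d ∧ d % 4 = r ∧ (OKc (2 * d) ∨ OK2 (2 * d)))).card

end Vale.Agent.P017.R4
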